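import Crest.Agent.N207.R.Two

/-! Row 207, block R: from the monotone quantity at good times to the contradiction (helper87). -/

set_option autoImplicit false
open Finset Filter Topology

namespace Crest.Agent.N207.R

/-- the memory term -/
noncomputable def mem (K a0 : ℝ) (t : ℕ → ℝ) (n : ℕ) : ℝ :=
  1 + ∑ m ∈ range (n - 1), (a0 / K ^ m) ^ (1 / 2 : ℝ) * (t n - t (m + 1)) ^ (-(3 / 4) : ℝ)

/-- `aₙ = a0 / Kⁿ`, `Iₙ = [tₙ, tₙ₊₁]`, `Z n = Zm n + Zp n` is the dissipation on `Iₙ` (before and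
after the good time), `P n` the monotone quantity at the good time of `Iₙ`. -/
structure Pre (K a0 c c0 C C2 B e1 e2 T : ℝ) (n0 : ℕ) (t Zm Zp be P : ℕ → ℝ) : Prop where
  K_ge : 2 ≤ K
  a0_pos : 0 < a0
  c_pos : 0 < c
  c0_pos : 0 < c0
  C_nn : 0 ≤ C
  C2_nn : 0 ≤ C2
  e1_nn : 0 ≤ e1
  e2_nn : 0 ≤ e2
  e1_le : e1 * K ^ 8 ≤ 1 / 64
  e2_le : e2 * √(C2 / c) * K ^ 8 ≤ 1 / 32
  n0_pos : 1 ≤ n0
  t_le : ∀ n, t n ≤ T
  d_ge : ∀ n, c0 * (a0 / K ^ n) ≤ t (n + 1) - t n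
  Zm_nn : ∀ n, 0 ≤ Zm n
  Zp_nn : ∀ n, 0 ≤ Zp n
  Z_bdd : ∃ Z0, ∀ n, Zm n + Zp n ≤ Z0
  be_nn : ∀ n, 0 ≤ be n
  be_le : ∀ n : ℕ, be n ≤ B * ((n : ℝ) + 1) * mem K a0 t n
  drop : ∀ n, c * (a0 / K ^ n) ^ 4 ≤ (t (n + 1) - t n) * (Zm n + Zp n)
  wl : ∀ n, n0 ≤ n → |P n| ≤ e2 * (a0 / K ^ n) ^ 2 *
    (√(C2 * (Zm (n - 1) + Zp (n - 1) + (Zm n + Zp n)) / (t (n + 1) - t n)) + (a0 / K ^ n) ^ 2 * be n)
  mono : ∀ n, n0 ≤ n → Zp n + Zm (n + 1)
    - e1 * (Zm (n - 1) + Zp (n - 1) + (Zm n + Zp n) + (Zm (n + 1) + Zp (n + 1)))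
    - C * ((a0 / K ^ n) ^ 4 * be n ^ 2 * (t (n + 1) - t n)
      + (a0 / K ^ (n + 1)) ^ 4 * be (n + 1) ^ 2 * (t (n + 2) - t (n + 1))
      + (a0 / K ^ n) ^ 4 * ((n : ℝ) + 1)) ≤ P (n + 1) - P n

theorem mem_le {K a0 c0 : ℝ} {t : ℕ → ℝ} (hK : 1 < K) (ha0 : 0 < a0) (hc0 : 0 < c0)
    (hd : ∀ n, c0 * (a0 / K ^ n) ≤ t (n + 1) - t n) :
    ∃ A, 0 ≤ A ∧ ∀ n, mem K a0 t n ≤ A * K ^ n := by
  have hK0 : 0 < K := by linarith
  have hdp : ∀ n, 0 < c0 * (a0 / K ^ n) := fun n => by positivity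
  have hm : StrictMono t := strictMono_nat_of_lt_succ fun n => by linarith [hd n, hdp n]
  set A1 := a0 ^ (1 / 2 : ℝ) * ((c0 * a0) ^ (-(3 / 4) : ℝ) * K) with hA1
  have hA10 : 0 ≤ A1 := by positivity
  have p1 : ∀ n, ∀ m ∈ range (n - 1),
      (a0 / K ^ m) ^ (1 / 2 : ℝ) * (t n - t (m + 1)) ^ (-(3 / 4) : ℝ) ≤ A1 * K ^ m := by
    intro n m hm'
    have h0 : t (m + 1 + 1) ≤ t n := hm.monotone (by have := mem_range.1 hm'; omega)
    have h1 : (t n - t (m + 1)) ^ (-(3 / 4) : ℝ) ≤ (c0 * (a0 / K ^ (m + 1))) ^ (-(3 / 4) : ℝ) :=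
      Real.rpow_le_rpow_of_nonpos (hdp _) (by linarith [hd (m + 1)]) (by norm_num)
    have hp : (1 : ℝ) ≤ K ^ (m + 1) := one_le_pow₀ hK.le
    have h2 : (c0 * (a0 / K ^ (m + 1))) ^ (-(3 / 4) : ℝ) ≤ (c0 * a0) ^ (-(3 / 4) : ℝ) * K ^ (m + 1) := by
      rw [← mul_div_assoc, Real.div_rpow (by positivity) (by positivity),
        Real.rpow_neg (x := K ^ (m + 1)) (by positivity), div_inv_eq_mul]
      refine mul_le_mul_of_nonneg_left ?_ (by positivity)
      calc (K ^ (m + 1)) ^ (3 / 4 : ℝ) ≤ (K ^ (m + 1)) ^ (1 : ℝ) :=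
            Real.rpow_le_rpow_of_exponent_le hp (by norm_num)
        _ = _ := Real.rpow_one _
    have h3 : (a0 / K ^ m) ^ (1 / 2 : ℝ) ≤ a0 ^ (1 / 2 : ℝ) :=
      Real.rpow_le_rpow (by positivity) (div_le_self ha0.le (one_le_pow₀ hK.le)) (by norm_num)
    have h4 : 0 ≤ (t n - t (m + 1)) ^ (-(3 / 4) : ℝ) :=
      Real.rpow_nonneg (by linarith [hd (m + 1), hdp (m + 1)]) _
    refine (mul_le_mul h3 (h1.trans h2) h4 (by positivity)).trans (le_of_eq ?_)
    simp only [hA1]; ring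
  have h4 : 0 < K - 1 := by linarith
  refine ⟨1 + A1 / (K - 1), by positivity, fun n => ?_⟩
  have h1 := sum_le_sum (p1 n)
  rw [← mul_sum] at h1
  have h2 := geo_sum_le hK (n - 1)
  have h3 : K ^ (n - 1) ≤ K ^ n := pow_le_pow_right₀ hK.le (by omega)
  have h5 : A1 * ∑ m ∈ range (n - 1), K ^ m ≤ A1 * (K ^ n / (K - 1)) := by
    refine mul_le_mul_of_nonneg_left (h2.trans ?_) hA10; gcongr
  have h6 : (1 : ℝ) ≤ K ^ n := one_le_pow₀ hK.le
  have h7 : (1 + A1 / (K - 1)) * K ^ n = K ^ n + A1 * (K ^ n / (K - 1)) := by ring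
  unfold mem
  linarith

theorem one_le_mem {K a0 c0 : ℝ} {t : ℕ → ℝ} (hK : 1 < K) (ha0 : 0 < a0) (hc0 : 0 < c0)
    (hd : ∀ n, c0 * (a0 / K ^ n) ≤ t (n + 1) - t n) (n : ℕ) : 1 ≤ mem K a0 t n := by
  have hK0 : 0 < K := by linarith
  have hdp : ∀ n, 0 < c0 * (a0 / K ^ n) := fun n => by positivity
  have hm : StrictMono t := strictMono_nat_of_lt_succ fun n => by linarith [hd n, hdp n]
  refine le_add_of_nonneg_right (sum_nonneg fun m hm' => mul_nonneg (by positivity) ?_)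
  have h0 : t (m + 1) ≤ t n := hm.monotone (by have := mem_range.1 hm'; omega)
  exact Real.rpow_nonneg (by linarith) _

/-- telescoping -/
theorem tele {Zm Zp E P : ℕ → ℝ} {e : ℝ} (he : 0 ≤ e) (he6 : e ≤ 1 / 6) (hm : ∀ n, 0 ≤ Zm n)
    (hp : ∀ n, 0 ≤ Zp n) (k : ℕ)
    (h : ∀ n, k ≤ n → Zp (n + 1) + Zm (n + 2)
      - e * (Zm n + Zp n + (Zm (n + 1) + Zp (n + 1)) + (Zm (n + 2) + Zp (n + 2))) - E (n + 1)
        ≤ P (n + 2) - P (n + 1)) (N : ℕ) :
    1 / 2 * ∑ j ∈ range N, (Zm (k + 2 + j) + Zp (k + 2 + j)) ≤ P (k + 2 + N) - P (k + 1)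
      + e * (Zm k + Zp k + 2 * (Zm (k + 1) + Zp (k + 1))) + e * (Zm (k + 2 + N) + Zp (k + 2 + N))
      + ∑ j ∈ range (N + 1), E (k + 1 + j) := by
  have key : ∀ N : ℕ, (1 - 3 * e) * ∑ j ∈ range N, (Zm (k + 2 + j) + Zp (k + 2 + j)) + Zm (k + 2 + N)
      + e * (Zm (k + 1 + N) + Zp (k + 1 + N)) ≤ P (k + 2 + N) - P (k + 1)
      + e * (Zm k + Zp k + 2 * (Zm (k + 1) + Zp (k + 1))) + e * (Zm (k + 2 + N) + Zp (k + 2 + N))
      + ∑ j ∈ range (N + 1), E (k + 1 + j) := by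
    intro N
    induction N with
    | zero =>
      have := h k le_rfl
      have := hp (k + 1)
      simp only [range_zero, sum_empty, Nat.add_zero, zero_add, range_one, sum_singleton]
      nlinarith
    | succ N ih =>
      have h1 := h (k + 1 + N) (by omega)
      rw [sum_range_succ, sum_range_succ _ (N + 1)]
      have e1 : k + 1 + N + 1 = k + 2 + N := by omega
      have e2 : k + 1 + N + 2 = k + 2 + (N + 1) := by omega
      have e3 : k + 1 + (N + 1) = k + 2 + N := by omega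
      rw [e1, e2] at h1
      rw [e3]
      nlinarith
  have h1 := key N
  have h2 : 0 ≤ ∑ j ∈ range N, (Zm (k + 2 + j) + Zp (k + 2 + j)) :=
    sum_nonneg fun j _ => add_nonneg (hm _) (hp _)
  have h3 := hm (k + 2 + N)
  have h4 := mul_nonneg he (add_nonneg (hm (k + 1 + N)) (hp (k + 1 + N)))
  nlinarith

theorem step_alg {L q Z0 Z1 Z2 e1 e2 s C S G b p P : ℝ} (hL : 1 < L) (hq : 0 < q) (h0 : 0 ≤ Z0)
    (h1 : 0 ≤ Z1) (he1 : 0 ≤ e1) (he2 : 0 ≤ e2) (hs : 0 ≤ s) (hC : 0 ≤ C) (hS : 0 ≤ S) (hG : 0 ≤ G)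
    (hb : 0 ≤ b) (hp : p ≤ b) (a1 : e1 * L ^ 2 ≤ 1 / 64) (a2 : e2 * s * L ^ 2 ≤ 1 / 32)
    (k1 : 1 / 2 * Z2 ≤ P + e1 * (Z0 + 2 * Z1) + C * q * (2 * G + S * p))
    (k2 : P ≤ e2 * s * (Z0 + Z1) + e2 * (q * b)) :
    Z2 / (q / L) ≤ 1 / 8 * (Z0 / (q * L) + Z1 / q) + L * (2 * e2 + 4 * C + 2 * C * S) * (b + G) := by
  have hL0 : 0 < L := by linarith
  set u := Z0 / (q * L) with hu
  set v := Z1 / q with hv
  have hu0 : 0 ≤ u := by positivity
  have hv0 : 0 ≤ v := by positivity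
  have eu : Z0 = q * (L * u) := by rw [hu]; field_simp
  have ev : Z1 ≤ q * (L * v) := by
    have : Z1 = q * v := by rw [hv]; field_simp
    rw [this]; exact mul_le_mul_of_nonneg_left (le_mul_of_one_le_left hv0 hL.le) hq.le
  rw [div_div_eq_mul_div, div_le_iff₀ hq]
  have w1 : Z0 + Z1 ≤ q * (L * (u + v)) := by rw [mul_add, mul_add]; linarith
  have w2 : (2 * (e2 * s) + 4 * e1) * (Z0 + Z1) * L ≤ 1 / 8 * (u + v) * q := by
    have w3 : (2 * (e2 * s) + 4 * e1) * L ^ 2 ≤ 1 / 8 := by linarith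
    calc _ ≤ (2 * (e2 * s) + 4 * e1) * (q * (L * (u + v))) * L := by gcongr
      _ = (2 * (e2 * s) + 4 * e1) * L ^ 2 * ((u + v) * q) := by ring
      _ ≤ 1 / 8 * ((u + v) * q) := by gcongr
      _ = _ := by ring
  have w4 : 2 * e2 * b + 2 * C * (2 * G + S * p) ≤ (2 * e2 + 4 * C + 2 * C * S) * (b + G) := by
    have x1 := mul_le_mul_of_nonneg_left hp (show 0 ≤ 2 * C * S by positivity)
    nlinarith [mul_nonneg he2 hG, mul_nonneg hC hb, mul_nonneg (mul_nonneg hC hS) hG]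
  have w5 : Z2 ≤ (2 * (e2 * s) + 4 * e1) * (Z0 + Z1) + q * ((2 * e2 + 4 * C + 2 * C * S) * (b + G)) := by
    have x1 := mul_le_mul_of_nonneg_left w4 hq.le
    nlinarith [mul_nonneg he1 h0]
  have w6 := mul_le_mul_of_nonneg_right w5 hL0.le
  nlinarith

set_option maxHeartbeats 1000000 in
theorem Pre.false {K a0 c c0 C C2 B e1 e2 T : ℝ} {n0 : ℕ} {t Zm Zp be P : ℕ → ℝ}
    (H : Pre K a0 c c0 C C2 B e1 e2 T n0 t Zm Zp be P) : False := by
  have hK : 1 < K := by linarith [H.K_ge]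
  have hK0 : 0 < K := by linarith
  have ha0 := H.a0_pos
  have hc := H.c_pos
  have hc0 := H.c0_pos
  have hC := H.C_nn
  have he1 := H.e1_nn
  have he2 := H.e2_nn
  set d : ℕ → ℝ := fun n => t (n + 1) - t n with hd
  have hdp : ∀ n, 0 < d n := fun n => lt_of_lt_of_le (by positivity) (H.d_ge n)
  have hds : ∀ N, ∑ n ∈ range N, d n ≤ T - t 0 := fun N => by
    rw [sum_range_sub]; linarith [H.t_le N]
  have hsum : Summable d := summable_of_sum_range_le (fun n => (hdp n).le) hds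
  set D := ∑' n, d n with hD
  have hdD : ∀ n, d n ≤ D := fun n => hsum.le_tsum n fun m _ => (hdp m).le
  have hD0 : 0 ≤ D := (hdp 0).le.trans (hdD 0)
  set q : ℕ → ℝ := fun n => (a0 / K ^ n) ^ 4 with hq
  have hqp : ∀ n, 0 < q n := fun n => by positivity
  set kap := (K ^ 4)⁻¹ with hkap
  have hkp : 0 < kap := by positivity
  have hK4 : 1 < K ^ 4 := one_lt_pow₀ hK (by norm_num)
  have hk1 : kap < 1 := inv_lt_one_of_one_lt₀ hK4
  have hqa : ∀ n m, q (n + m) = q n * kap ^ m := fun n m => by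
    simp only [hq, hkap, inv_pow]; field_simp; ring
  set Z : ℕ → ℝ := fun n => Zm n + Zp n with hZ
  have hZ0 : ∀ n, 0 ≤ Z n := fun n => add_nonneg (H.Zm_nn n) (H.Zp_nn n)
  have hm1 := one_le_mem hK ha0 hc0 H.d_ge
  obtain ⟨A, hA, hmA⟩ := mem_le hK ha0 hc0 H.d_ge
  have hB : 0 ≤ B := by
    have h1 := (H.be_nn 0).trans (H.be_le 0)
    have h2 := hm1 0
    simp only [Nat.cast_zero, zero_add, mul_one] at h1
    by_contra h; nlinarith
  set b : ℕ → ℝ := fun n => be n + ((n : ℝ) + 1) with hb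
  have hb0 : ∀ n, 0 ≤ b n := fun n => add_nonneg (H.be_nn n) (by positivity)
  have hb1 : ∀ n, be n ≤ b n := fun n => le_add_of_nonneg_right (by positivity)
  have hb2 : ∀ n : ℕ, (n : ℝ) + 1 ≤ b n := fun n => le_add_of_nonneg_left (H.be_nn n)
  have hbm : ∀ n : ℕ, b n ≤ (B + 1) * ((n : ℝ) + 1) * mem K a0 t n := fun n => by
    have h1 := H.be_le n
    have h2 := mul_le_mul_of_nonneg_left (hm1 n) (show (0 : ℝ) ≤ (n : ℝ) + 1 by positivity)
    simp only [hb]; nlinarith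
  have hbK : ∀ n : ℕ, b n ≤ (B + 1) * A * (((n : ℝ) + 1) * K ^ n) := fun n => by
    have := mul_le_mul_of_nonneg_left (hmA n) (show 0 ≤ (B + 1) * ((n : ℝ) + 1) by positivity)
    linarith [hbm n]
  have hk2 : K ^ 2 * kap < 1 := by
    rw [hkap, ← div_eq_mul_inv, div_lt_one (by positivity)]
    exact pow_lt_pow_right₀ hK (by norm_num)
  have hs2 := summable_sq_geo (show 0 < K ^ 2 * kap by positivity) hk2
  have hG0 : Summable fun m : ℕ => kap ^ m * b m ^ 2 := by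
    refine Summable.of_nonneg_of_le (fun m => by positivity) (fun m => ?_)
      (hs2.mul_left (((B + 1) * A) ^ 2))
    calc kap ^ m * b m ^ 2 ≤ kap ^ m * ((B + 1) * A * (((m : ℝ) + 1) * K ^ m)) ^ 2 :=
          mul_le_mul_of_nonneg_left (pow_le_pow_left₀ (hb0 m) (hbK m) 2) (by positivity)
      _ = _ := by rw [mul_pow (K ^ 2), ← pow_mul, pow_mul' K 2 m]; ring
  have hG : ∀ n, Summable fun m : ℕ => kap ^ m * b (n + m) ^ 2 * d (n + m) := by
    intro n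
    have h1 := ((summable_nat_add_iff n).2 hG0).mul_left ((kap ^ n)⁻¹ * D)
    refine Summable.of_nonneg_of_le (fun m => by have := hdp (n + m); positivity) (fun m => ?_) h1
    rw [add_comm m n]
    calc kap ^ m * b (n + m) ^ 2 * d (n + m) ≤ kap ^ m * b (n + m) ^ 2 * D :=
          mul_le_mul_of_nonneg_left (hdD _) (by positivity)
      _ = _ := by rw [pow_add]; field_simp
  set G : ℕ → ℝ := fun n => ∑' m : ℕ, kap ^ m * b (n + m) ^ 2 * d (n + m) with hGd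
  have hGn : ∀ n, 0 ≤ G n := fun n => tsum_nonneg fun m => by have := hdp (n + m); positivity
  have hs := summable_sq_geo hkp hk1
  set S := ∑' m : ℕ, kap ^ m * ((m : ℝ) + 1) ^ 2 with hS
  have hS0 : 0 ≤ S := tsum_nonneg fun m => by positivity
  set E : ℕ → ℝ := fun n => C * (q n * be n ^ 2 * d n + q (n + 1) * be (n + 1) ^ 2 * d (n + 1)
    + q n * ((n : ℝ) + 1)) with hE
  have hEs : ∀ n N, ∑ j ∈ range N, E (n + j) ≤ C * q n * (2 * G n + S * ((n : ℝ) + 1)) := by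
    intro n N
    set f : ℕ → ℝ := fun m => kap ^ m * b (n + m) ^ 2 * d (n + m) with hf
    have hf0 : ∀ m, 0 ≤ f m := fun m => by have := hdp (n + m); positivity
    have h0 : ∀ m, q (n + m) * be (n + m) ^ 2 * d (n + m) ≤ q n * f m := fun m => by
      have h1 := pow_le_pow_left₀ (H.be_nn (n + m)) (hb1 (n + m)) 2
      have := hdp (n + m); have := hqp n
      rw [hqa]
      calc q n * kap ^ m * be (n + m) ^ 2 * d (n + m) ≤ q n * kap ^ m * b (n + m) ^ 2 * d (n + m) := by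
            gcongr
        _ = _ := by simp only [hf]; ring
    have h1 : ∀ j, E (n + j) ≤ C * q n * (f j + f (j + 1) +
        kap ^ j * ((j : ℝ) + 1) ^ 2 * ((n : ℝ) + 1)) := by
      intro j
      have h2 := h0 j
      have h3 := h0 (j + 1)
      have h4 : q (n + j) * (((n + j : ℕ) : ℝ) + 1) ≤
          q n * (kap ^ j * ((j : ℝ) + 1) ^ 2 * ((n : ℝ) + 1)) := by
        have h5 : ((n + j : ℕ) : ℝ) + 1 ≤ ((j : ℝ) + 1) ^ 2 * ((n : ℝ) + 1) := by
          have a1 := Nat.cast_nonneg (α := ℝ) n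
          have a2 := Nat.cast_nonneg (α := ℝ) j
          push_cast; nlinarith [mul_nonneg a1 a2, mul_nonneg (mul_nonneg a1 a2) a2]
        have := hqp n
        rw [hqa]
        calc q n * kap ^ j * (((n + j : ℕ) : ℝ) + 1) ≤
            q n * kap ^ j * (((j : ℝ) + 1) ^ 2 * ((n : ℝ) + 1)) := by gcongr
          _ = _ := by ring
      rw [← add_assoc] at h3
      rw [mul_assoc C]
      exact mul_le_mul_of_nonneg_left (by linarith) hC
    refine (sum_le_sum fun j _ => h1 j).trans ?_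
    rw [← mul_sum, sum_add_distrib, sum_add_distrib, ← sum_mul]
    have h2 : ∑ j ∈ range N, f j ≤ G n := (hG n).sum_le_tsum _ fun m _ => hf0 m
    have h3 : ∑ j ∈ range N, f (j + 1) ≤ G n := by
      have h4 : ∑ j ∈ range (N + 1), f j ≤ G n := (hG n).sum_le_tsum _ fun m _ => hf0 m
      rw [sum_range_succ'] at h4
      linarith [hf0 0]
    have h4 : ∑ j ∈ range N, kap ^ j * ((j : ℝ) + 1) ^ 2 ≤ S := hs.sum_le_tsum _ fun m _ => by positivity
    have h5 := mul_le_mul_of_nonneg_right h4 (show (0 : ℝ) ≤ (n : ℝ) + 1 by positivity)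
    have := hqp n
    exact mul_le_mul_of_nonneg_left (by linarith) (by positivity)
  set s := √(C2 / c) with hs'
  have hs0 : 0 ≤ s := Real.sqrt_nonneg _
  have hP : ∀ n, n0 ≤ n → |P n| ≤ e2 * s * (Z (n - 1) + Z n) + e2 * (q n * b n) := by
    intro n hn
    refine (H.wl n hn).trans ?_
    set a := a0 / K ^ n with ha
    have hap : 0 < a := by positivity
    have h1 : a ^ 2 * √(C2 * (Z (n - 1) + Z n) / d n) ≤ s * (Z (n - 1) + Z n) := by
      have hW : 0 ≤ Z (n - 1) + Z n := add_nonneg (hZ0 _) (hZ0 _)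
      rw [← Real.sqrt_sq (show 0 ≤ a ^ 2 by positivity), ← Real.sqrt_mul (by positivity), hs',
        ← Real.sqrt_sq hW, ← Real.sqrt_mul (div_nonneg H.C2_nn hc.le), Real.sqrt_sq hW]
      refine Real.sqrt_le_sqrt ?_
      have h2 : c * a ^ 4 ≤ d n * (Z (n - 1) + Z n) :=
        (H.drop n).trans (mul_le_mul_of_nonneg_left (le_add_of_nonneg_left (hZ0 _)) (hdp n).le)
      have h3 : a ^ 4 / d n ≤ (Z (n - 1) + Z n) / c := by
        rw [div_le_div_iff₀ (hdp n) hc]; linarith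
      have h4 := mul_le_mul_of_nonneg_left h3 (mul_nonneg H.C2_nn hW)
      calc _ = C2 * (Z (n - 1) + Z n) * (a ^ 4 / d n) := by ring
        _ ≤ _ := h4
        _ = _ := by ring
    have h2 : a ^ 4 * be n ≤ q n * b n := mul_le_mul_of_nonneg_left (hb1 n) (by positivity)
    calc _ = e2 * (a ^ 2 * √(C2 * (Z (n - 1) + Z n) / d n)) + e2 * (a ^ 4 * be n) := by
          simp only [hZ, hd]; ring
      _ ≤ e2 * (s * (Z (n - 1) + Z n)) + e2 * (q n * b n) := by gcongr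
      _ = _ := by ring
  have hqb : Tendsto (fun n => q n * b n) atTop (𝓝 0) := by
    have h1 := (hG0.tendsto_atTop_zero).const_mul (q 0)
    rw [mul_zero] at h1
    refine squeeze_zero (fun n => mul_nonneg (hqp n).le (hb0 n)) (fun n => ?_) h1
    have h2 := hqa 0 n
    rw [zero_add] at h2
    have h3 : b n ≤ b n ^ 2 := by nlinarith [hb2 n, Nat.cast_nonneg (α := ℝ) n]
    have := hqp 0
    rw [h2, mul_assoc]; gcongr
  have hK8 : 6 ≤ K ^ 8 := le_trans (by norm_num) (pow_le_pow_left₀ (by norm_num) H.K_ge 8)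
  have he6 : e1 ≤ 1 / 6 := by nlinarith [H.e1_le]
  have tl : ∀ k, n0 ≤ k + 1 → ∀ N, 1 / 2 * ∑ j ∈ range N, Z (k + 2 + j) ≤ P (k + 2 + N) - P (k + 1)
      + e1 * (Z k + 2 * Z (k + 1)) + e1 * Z (k + 2 + N)
      + C * q (k + 1) * (2 * G (k + 1) + S * (((k + 1 : ℕ) : ℝ) + 1)) := by
    intro k hk N
    have h1 := tele (E := E) (P := P) he1 he6 H.Zm_nn H.Zp_nn k
      (fun n hn => H.mono (n + 1) (by omega)) N
    have h2 := hEs (k + 1) (N + 1)
    simp only [hZ]; linarith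
  obtain ⟨Z0, hZb⟩ := H.Z_bdd
  obtain ⟨Q0, hQ0⟩ := hqb.bddAbove_range
  have hZlim : Tendsto Z atTop (𝓝 0) := by
    have h1 : Summable fun j => Z (n0 + 2 + j) := by
      refine summable_of_sum_range_le (c := 2 * (e2 * s * (2 * Z0) + e2 * Q0 - P (n0 + 1)
        + e1 * (Z n0 + 2 * Z (n0 + 1)) + e1 * Z0
        + C * q (n0 + 1) * (2 * G (n0 + 1) + S * (((n0 + 1 : ℕ) : ℝ) + 1)))) (fun j => hZ0 _) fun N => ?_
      have h2 := tl n0 (by omega) N
      have h3 := (le_abs_self _).trans (hP (n0 + 2 + N) (by omega))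
      have h4 : e2 * s * (Z (n0 + 2 + N - 1) + Z (n0 + 2 + N)) ≤ e2 * s * (2 * Z0) :=
        mul_le_mul_of_nonneg_left (by linarith [hZb (n0 + 2 + N - 1), hZb (n0 + 2 + N)])
          (by positivity)
      have h5 : e2 * (q (n0 + 2 + N) * b (n0 + 2 + N)) ≤ e2 * Q0 :=
        mul_le_mul_of_nonneg_left (hQ0 ⟨_, rfl⟩) he2
      have h6 : e1 * Z (n0 + 2 + N) ≤ e1 * Z0 := mul_le_mul_of_nonneg_left (hZb _) he1
      linarith
    rw [← tendsto_add_atTop_iff_nat (n0 + 2)]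
    simpa [add_comm] using h1.tendsto_atTop_zero
  have hPlim : Tendsto P atTop (𝓝 0) := by
    have h1 : Tendsto (fun n => Z (n - 1)) atTop (𝓝 0) := hZlim.comp (tendsto_sub_atTop_nat 1)
    have h2 := ((h1.add hZlim).const_mul (e2 * s)).add (hqb.const_mul e2)
    simp only [add_zero, mul_zero] at h2
    exact squeeze_zero_norm' ((eventually_ge_atTop n0).mono fun n hn => hP n hn) h2
  have hstep : ∀ k, n0 ≤ k + 1 → 1 / 2 * Z (k + 2) ≤ |P (k + 1)| + e1 * (Z k + 2 * Z (k + 1))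
      + C * q (k + 1) * (2 * G (k + 1) + S * (((k + 1 : ℕ) : ℝ) + 1)) := by
    intro k hk
    have hsh : Tendsto (fun N => k + 2 + N) atTop atTop := tendsto_atTop_mono
      (fun N => Nat.le_add_left N (k + 2)) tendsto_id
    have h1 := ((((hPlim.comp hsh).sub_const (P (k + 1))).add_const (e1 * (Z k + 2 * Z (k + 1)))).add
      ((hZlim.comp hsh).const_mul e1)).add_const
      (C * q (k + 1) * (2 * G (k + 1) + S * (((k + 1 : ℕ) : ℝ) + 1)))
    have h2 := ge_of_tendsto (b := 1 / 2 * Z (k + 2)) h1 ((eventually_ge_atTop 1).mono fun N hN => by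
      refine le_trans ?_ (tl k hk N)
      have := single_le_sum (f := fun j => Z (k + 2 + j)) (s := range N) (a := 0)
        (fun j _ => hZ0 _) (mem_range.2 hN)
      simp only [Nat.add_zero] at this
      linarith)
    linarith [neg_le_abs (P (k + 1))]
  have HH : Hyp c (K ^ 4 * (2 * e2 + 4 * C + 2 * C * S)) (1 / 8) kap n0 d (fun n => Z n / q n) b := by
    refine ⟨hc, by positivity, by norm_num, le_rfl, hkp, hk1, H.n0_pos, hdp, hsum, fun n => ?_, hb0,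
      fun n hn => ?_⟩
    · rw [div_le_div_iff₀ (hdp n) (hqp n), mul_comm (Z n)]; exact H.drop n
    · obtain ⟨k, rfl⟩ : ∃ k, n = k + 1 := ⟨n - 1, by have := H.n0_pos; omega⟩
      have h1 := hstep k hn
      have h2 := hP (k + 1) hn
      simp only [Nat.add_sub_cancel] at h2 ⊢
      have q1 : q k = q (k + 1) * K ^ 4 := by rw [hqa k 1, hkap]; field_simp
      have q2 : q (k + 1 + 1) = q (k + 1) / K ^ 4 := by rw [hqa (k + 1) 1, hkap]; field_simp
      change Z (k + 2) / q (k + 1 + 1) ≤ 1 / 8 * (Z k / q k + Z (k + 1) / q (k + 1)) +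
        K ^ 4 * (2 * e2 + 4 * C + 2 * C * S) * (b (k + 1) + G (k + 1))
      rw [q1, q2]
      exact step_alg hK4 (hqp _) (hZ0 _) (hZ0 _) he1 he2 hs0 hC hS0 (hGn _) (hb0 _) (hb2 _)
        (by rw [← pow_mul]; exact H.e1_le) (by rw [← pow_mul]; exact H.e2_le) h1 h2
  refine HH.two_times (B := B + 1) hK ha0 hc0 ?_ H.d_ge hbm
  rw [hkap, inv_mul_le_iff₀ (by positivity), mul_one]
  calc K = K ^ 1 := (pow_one K).symm
    _ ≤ K ^ 4 := pow_le_pow_right₀ hK.le (by norm_num)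

/-- a good time -/
theorem exists_good {f : ℝ → ℝ} {a b M : ℝ} (hab : a < b)
    (hf : IntervalIntegrable f MeasureTheory.volume a b) (hM : ∫ s in a..b, f s ≤ M) :
    ∃ s ∈ Set.Ioo a b, f s ≤ M / (b - a) := by
  have h0 : MeasureTheory.volume (Set.Ioo a b) ≠ 0 := by simp [hab]
  have h1 : MeasureTheory.volume (Set.Ioo a b) ≠ ⊤ := by simp
  have h2 : MeasureTheory.IntegrableOn f (Set.Ioo a b) :=
    (intervalIntegrable_iff_integrableOn_Ioo_of_le hab.le).1 hf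
  obtain ⟨s, hs, h3⟩ := MeasureTheory.exists_le_setAverage h0 h1 h2
  refine ⟨s, hs, h3.trans ?_⟩
  rw [intervalIntegral.integral_of_le hab.le, MeasureTheory.integral_Ioc_eq_integral_Ioo] at hM
  rw [MeasureTheory.setAverage_eq, Real.volume_real_Ioo_of_le hab.le, smul_eq_mul, ← div_eq_inv_mul]
  have : 0 < b - a := by linarith
  gcongr

end Crest.Agent.N207.R
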