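import Crest.Agent.N207.R.Two

/-! Row 207, block R: the discrete ODE lemma, three terms back (helper87). -/

set_option autoImplicit false
open Finset Filter

namespace Crest.Agent.N207.R

/-- The hypothesis of the discrete ODE lemma, three terms back. -/
structure Hyp3 (c C th kap : ℝ) (n0 : ℕ) (d z be : ℕ → ℝ) : Prop where
  c_pos : 0 < c
  C_nn : 0 ≤ C
  th_le : th ≤ 1 / 16
  kap_pos : 0 < kap
  kap_lt : kap < 1
  d_pos : ∀ n, 0 < d n
  d_sum : Summable d
  z_ge : ∀ n, c / d n ≤ z n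
  be_ge : ∀ n, 1 ≤ be n
  step : ∀ n, n0 ≤ n → z (n + 3) ≤ th * (z n + z (n + 1) + z (n + 2)) +
    C * (1 + ∑' m, kap ^ m * be (n + m) ^ 2 * d (n + m))

theorem sum_rec3 {w e : ℕ → ℝ} (hw : ∀ n, 0 ≤ w n) (he : ∀ n, 0 ≤ e n) {m : ℕ}
    (h : ∀ k, m ≤ k → w (k + 3) ≤ 1 / 16 * (w k + w (k + 1) + w (k + 2)) + e k) (N : ℕ) :
    ∑ n ∈ range N, w n ≤ 2 * ∑ n ∈ range (m + 3), w n + 2 * ∑ n ∈ range N, e n := by
  have mono : ∀ {f : ℕ → ℝ}, (∀ n, 0 ≤ f n) → ∀ {a b : ℕ}, a ≤ b →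
      ∑ n ∈ range a, f n ≤ ∑ n ∈ range b, f n := fun hf _ _ hab =>
    sum_le_sum_of_subset_of_nonneg (range_mono hab) fun n _ _ => hf n
  have key : ∀ j : ℕ, ∑ n ∈ range (m + j + 3), w n -
      1 / 16 * (∑ n ∈ range (m + j), w n + ∑ n ∈ range (m + j + 1), w n +
        ∑ n ∈ range (m + j + 2), w n) ≤
      ∑ n ∈ range (m + 3), w n + ∑ n ∈ range (m + j), e n := by
    intro j
    induction j with
    | zero =>
      have h1 : 0 ≤ ∑ n ∈ range m, w n := sum_nonneg fun n _ => hw n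
      have h2 : 0 ≤ ∑ n ∈ range (m + 1), w n := sum_nonneg fun n _ => hw n
      have h2' : 0 ≤ ∑ n ∈ range (m + 2), w n := sum_nonneg fun n _ => hw n
      have h3 : 0 ≤ ∑ n ∈ range m, e n := sum_nonneg fun n _ => he n
      simp only [Nat.add_zero]; linarith
    | succ j ih =>
      have h1 := h (m + j) (by omega)
      rw [← Nat.add_assoc]
      rw [sum_range_succ w (m + j + 3), sum_range_succ e (m + j)]
      rw [sum_range_succ w (m + j + 2), sum_range_succ w (m + j + 1), sum_range_succ w (m + j)]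
        at ih ⊢
      linarith
  have hE : 0 ≤ ∑ n ∈ range N, e n := sum_nonneg fun n _ => he n
  have hW : 0 ≤ ∑ n ∈ range (m + 3), w n := sum_nonneg fun n _ => hw n
  by_cases hN : N ≤ m + 3
  · have := mono hw hN; linarith
  · obtain ⟨j, rfl⟩ : ∃ j, N = m + j + 3 := ⟨N - m - 3, by omega⟩
    have h1 := key j
    have h2 := mono hw (show m + j ≤ m + j + 3 by omega)
    have h3 := mono hw (show m + j + 1 ≤ m + j + 3 by omega)
    have h3' := mono hw (show m + j + 2 ≤ m + j + 3 by omega)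
    have h4 := mono he (show m + j ≤ m + j + 3 by omega)
    linarith

namespace Hyp3

variable {c C th kap : ℝ} {n0 : ℕ} {d z be : ℕ → ℝ}

theorem z_pos (H : Hyp3 c C th kap n0 d z be) (n : ℕ) : 0 < z n :=
  lt_of_lt_of_le (div_pos H.c_pos (H.d_pos n)) (H.z_ge n)

theorem be_nn (H : Hyp3 c C th kap n0 d z be) (n : ℕ) : 0 ≤ be n := zero_le_one.trans (H.be_ge n)

theorem step' (H : Hyp3 c C th kap n0 d z be) (n : ℕ) (hn : n0 ≤ n) :
    z (n + 3) ≤ th * (z n + z (n + 1) + z (n + 2)) +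
      C * (be n + ∑' m, kap ^ m * be (n + m) ^ 2 * d (n + m)) :=
  (H.step n hn).trans (add_le_add le_rfl
    (mul_le_mul_of_nonneg_left (add_le_add (H.be_ge n) le_rfl) H.C_nn))

theorem d_le (H : Hyp3 c C th kap n0 d z be) (n : ℕ) : d n ≤ ∑' m, d m :=
  H.d_sum.le_tsum n fun m _ => (H.d_pos m).le

theorem sum_d_le (H : Hyp3 c C th kap n0 d z be) (m N : ℕ) :
    ∑ n ∈ range N, d (n + m) ≤ ∑' k, d k := by
  have h1 : ∑ n ∈ range N, d (n + m) = ∑ k ∈ (range N).map (addRightEmbedding m), d k := by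
    rw [sum_map]; rfl
  rw [h1]
  exact H.d_sum.sum_le_tsum _ fun k _ => (H.d_pos k).le

/-- First pass. -/
theorem r1 (H : Hyp3 c C th kap n0 d z be) {B x : ℝ} (hx : 1 ≤ x) (hk : x ^ 2 * kap < 1)
    (hb : ∀ n : ℕ, be n ≤ B * ((n : ℝ) + 1) * x ^ n) :
    ∃ C' : ℝ, 0 < C' ∧ ∀ n : ℕ, z n ≤ C' * ((n : ℝ) + 1) ^ 2 * x ^ (2 * n) := by
  have hx0 : 0 < x := by linarith
  have hB : 0 ≤ B := by have := (H.be_nn 0).trans (hb 0); simpa using this
  set D := ∑' m, d m with hD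
  have hD0 : 0 ≤ D := (H.d_pos 0).le.trans (H.d_le 0)
  have hk0 : 0 < x ^ 2 * kap := mul_pos (by positivity) H.kap_pos
  have hs := summable_sq_geo hk0 hk
  set S := ∑' m : ℕ, (x ^ 2 * kap) ^ m * ((m : ℝ) + 1) ^ 2 with hS
  have hS0 : 0 ≤ S := tsum_nonneg fun m => by positivity
  set W : ℕ → ℝ := fun n => ((n : ℝ) + 1) ^ 2 * x ^ (2 * n) with hW
  have hW1 : ∀ n, 1 ≤ W n := fun n => by
    have h1 : (1 : ℝ) ≤ ((n : ℝ) + 1) ^ 2 := one_le_pow₀ (by simp)
    have h2 : (1 : ℝ) ≤ x ^ (2 * n) := one_le_pow₀ hx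
    exact one_le_mul_of_one_le_of_one_le h1 h2
  have hWm : ∀ n, W n ≤ W (n + 1) := fun n => by
    simp only [hW]
    have h1 : ((n : ℝ) + 1) ^ 2 ≤ (((n + 1 : ℕ) : ℝ) + 1) ^ 2 := by
      push_cast; gcongr; linarith
    have h2 : x ^ (2 * n) ≤ x ^ (2 * (n + 1)) := pow_le_pow_right₀ hx (by omega)
    exact mul_le_mul h1 h2 (by positivity) (by positivity)
  have hL : ∀ n : ℕ, be n + ∑' m, kap ^ m * be (n + m) ^ 2 * d (n + m) ≤ (B + B ^ 2 * D * S) * W n := by
    intro n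
    have h1 : be n ≤ B * W n := by
      refine (hb n).trans ?_
      simp only [hW]
      have h1 : ((n : ℝ) + 1) ≤ ((n : ℝ) + 1) ^ 2 := by nlinarith [Nat.cast_nonneg (α := ℝ) n]
      have h2 : x ^ n ≤ x ^ (2 * n) := pow_le_pow_right₀ hx (by omega)
      rw [mul_assoc]
      exact mul_le_mul_of_nonneg_left (mul_le_mul h1 h2 (by positivity) (by positivity)) hB
    have h2 : ∀ m : ℕ, kap ^ m * be (n + m) ^ 2 * d (n + m) ≤
        B ^ 2 * D * W n * ((x ^ 2 * kap) ^ m * ((m : ℝ) + 1) ^ 2) := by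
      intro m
      have h3 : be (n + m) ≤ B * (((n : ℝ) + 1) * ((m : ℝ) + 1)) * (x ^ n * x ^ m) := by
        refine (hb _).trans ?_
        rw [pow_add]
        have : ((n + m : ℕ) : ℝ) + 1 ≤ ((n : ℝ) + 1) * ((m : ℝ) + 1) := by
          push_cast; nlinarith [Nat.cast_nonneg (α := ℝ) n, Nat.cast_nonneg (α := ℝ) m,
            mul_nonneg (Nat.cast_nonneg (α := ℝ) n) (Nat.cast_nonneg (α := ℝ) m)]
        gcongr
      have h4 : be (n + m) ^ 2 ≤ (B * (((n : ℝ) + 1) * ((m : ℝ) + 1)) * (x ^ n * x ^ m)) ^ 2 :=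
        pow_le_pow_left₀ (H.be_nn _) h3 2
      have hk1 := H.kap_pos
      calc kap ^ m * be (n + m) ^ 2 * d (n + m)
          ≤ kap ^ m * (B * (((n : ℝ) + 1) * ((m : ℝ) + 1)) * (x ^ n * x ^ m)) ^ 2 * D :=
            mul_le_mul (mul_le_mul_of_nonneg_left h4 (by positivity)) (H.d_le _) (H.d_pos _).le
              (by positivity)
        _ = _ := by simp only [hW]; rw [mul_pow (x ^ 2) kap, ← pow_mul, pow_mul' x 2 n, pow_mul' x 2 m]; ring
    have hsm : Summable fun m : ℕ => kap ^ m * be (n + m) ^ 2 * d (n + m) :=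
      Summable.of_nonneg_of_le (fun m => by
        have := H.kap_pos; have := H.d_pos (n + m); positivity) h2 (hs.mul_left _)
    have h5 := hsm.tsum_le_tsum h2 (hs.mul_left _)
    rw [tsum_mul_left] at h5
    nlinarith
  set C1 := C * (B + B ^ 2 * D * S) with hC1
  have hC10 : 0 ≤ C1 := mul_nonneg H.C_nn (by positivity)
  set M := 2 * C1 + ∑ k ∈ range (n0 + 3), z k with hM
  have hz0 : 0 < ∑ k ∈ range (n0 + 3), z k := sum_pos (fun k _ => H.z_pos k) (by simp)
  have hM0 : 0 < M := by linarith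
  have key : ∀ n, z n ≤ M * W n := by
    intro n
    induction n using Nat.strong_induction_on with
    | _ n ih =>
      by_cases hn : n < n0 + 3
      · have h1 : z n ≤ ∑ k ∈ range (n0 + 3), z k :=
          single_le_sum (f := z) (fun k _ => (H.z_pos k).le) (by simpa using hn)
        nlinarith [hW1 n]
      · obtain ⟨k, rfl⟩ : ∃ k, n = k + 3 := ⟨n - 3, by omega⟩
        have h1 := H.step' k (by omega)
        have h2 := ih k (by omega)
        have h3 := ih (k + 1) (by omega)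
        have h3' := ih (k + 2) (by omega)
        have h4 := mul_le_mul_of_nonneg_left (hL k) H.C_nn
        have h5 := hWm k
        have h6 := hWm (k + 1)
        have h6' := hWm (k + 2)
        have h7 := hW1 k
        have h8 : z k + z (k + 1) + z (k + 2) ≤ 3 * (M * W (k + 3)) := by nlinarith
        have h9 : th * (z k + z (k + 1) + z (k + 2)) ≤ 1 / 16 * (3 * (M * W (k + 3))) :=
          mul_le_mul H.th_le h8 (add_pos (add_pos (H.z_pos _) (H.z_pos _)) (H.z_pos _)).le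
            (by norm_num)
        have h10 : C1 * W k ≤ C1 * W (k + 3) := mul_le_mul_of_nonneg_left (by linarith) hC10
        have h11 : 2 * C1 * W (k + 3) ≤ M * W (k + 3) :=
          mul_le_mul_of_nonneg_right (by linarith) (by linarith)
        have h12 : 0 ≤ M * W (k + 3) := mul_nonneg hM0.le (by linarith)
        rw [← mul_assoc] at h4
        nlinarith
  exact ⟨M, hM0, fun n => by simpa [hW, mul_assoc] using key n⟩

/-- Second pass. -/
theorem r2 (H : Hyp3 c C th kap n0 d z be) {B : ℝ} (hb : ∀ n : ℕ, be n ≤ B * ((n : ℝ) + 1)) :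
    False := by
  have hB : 0 ≤ B := by have := (H.be_nn 0).trans (hb 0); simpa using this
  set D := ∑' m, d m with hD
  have hD0 : 0 ≤ D := (H.d_pos 0).le.trans (H.d_le 0)
  have hk := H.kap_pos
  have hs := summable_sq_geo H.kap_pos H.kap_lt
  set S := ∑' m : ℕ, kap ^ m * ((m : ℝ) + 1) ^ 2 with hS
  have hS0 : 0 ≤ S := tsum_nonneg fun m => by positivity
  set G : ℕ → ℝ := fun n => ∑' m : ℕ, kap ^ m * ((m : ℝ) + 1) ^ 2 * d (n + m) with hG
  have hGs : ∀ n, Summable fun m : ℕ => kap ^ m * ((m : ℝ) + 1) ^ 2 * d (n + m) := fun n =>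
    Summable.of_nonneg_of_le (fun m => by have := H.d_pos (n + m); positivity)
      (fun m => mul_le_mul_of_nonneg_left (H.d_le _) (by positivity)) (hs.mul_right D)
  have hGsum : ∀ N, ∑ n ∈ range N, G n ≤ S * D := by
    intro N
    simp only [hG]
    rw [← Summable.tsum_finsetSum fun n _ => hGs n, hS, ← tsum_mul_right]
    refine Summable.tsum_le_tsum (fun m => ?_) (summable_sum fun n _ => hGs n) (hs.mul_right D)
    rw [← mul_sum]
    exact mul_le_mul_of_nonneg_left (H.sum_d_le m N) (by positivity)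
  have hG0 : ∀ n, 0 ≤ G n := fun n => tsum_nonneg fun m => by have := H.d_pos (n + m); positivity
  set w : ℕ → ℝ := fun n => z n / ((n : ℝ) + 1) ^ 2 with hw
  have hw0 : ∀ n, 0 ≤ w n := fun n => div_nonneg (H.z_pos n).le (by positivity)
  set h : ℕ → ℝ := fun n => 1 / ((n : ℝ) + 1) with hh
  have hh0 : ∀ n, 0 < h n := fun n => by positivity
  have hstep : ∀ n : ℕ, n0 ≤ n →
      w (n + 3) ≤ 1 / 16 * (w n + w (n + 1) + w (n + 2)) + C * (B * h n + B ^ 2 * G n) := by
    intro n hk1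
    have h1 := H.step' n hk1
    have hp : (0 : ℝ) < (n : ℝ) + 1 := by positivity
    have h2 : ∀ m : ℕ, kap ^ m * be (n + m) ^ 2 * d (n + m) ≤
        B ^ 2 * ((n : ℝ) + 1) ^ 2 * (kap ^ m * ((m : ℝ) + 1) ^ 2 * d (n + m)) := by
      intro m
      have h3 : be (n + m) ≤ B * (((n : ℝ) + 1) * ((m : ℝ) + 1)) := by
        refine (hb _).trans ?_
        have : ((n + m : ℕ) : ℝ) + 1 ≤ ((n : ℝ) + 1) * ((m : ℝ) + 1) := by
          push_cast; nlinarith [Nat.cast_nonneg (α := ℝ) n, Nat.cast_nonneg (α := ℝ) m,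
            mul_nonneg (Nat.cast_nonneg (α := ℝ) n) (Nat.cast_nonneg (α := ℝ) m)]
        gcongr
      have h4 : be (n + m) ^ 2 ≤ (B * (((n : ℝ) + 1) * ((m : ℝ) + 1))) ^ 2 :=
        pow_le_pow_left₀ (H.be_nn _) h3 2
      have := H.d_pos (n + m)
      calc kap ^ m * be (n + m) ^ 2 * d (n + m)
          ≤ kap ^ m * (B * (((n : ℝ) + 1) * ((m : ℝ) + 1))) ^ 2 * d (n + m) := by gcongr
        _ = _ := by ring
    have hsm : Summable fun m : ℕ => kap ^ m * be (n + m) ^ 2 * d (n + m) :=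
      Summable.of_nonneg_of_le (fun m => by have := H.d_pos (n + m); positivity) h2
        ((hGs n).mul_left _)
    have h5 := hsm.tsum_le_tsum h2 ((hGs n).mul_left _)
    rw [tsum_mul_left] at h5
    have h6 : be n ≤ B * h n * ((n : ℝ) + 1) ^ 2 := by
      refine (hb n).trans (le_of_eq ?_)
      simp only [hh]; field_simp
    have h7 : z (n + 3) ≤ 1 / 16 * (z n + z (n + 1) + z (n + 2)) +
        C * (B * h n + B ^ 2 * G n) * ((n : ℝ) + 1) ^ 2 := by
      have h8 : th * (z n + z (n + 1) + z (n + 2)) ≤ 1 / 16 * (z n + z (n + 1) + z (n + 2)) :=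
        mul_le_mul_of_nonneg_right H.th_le
          (add_pos (add_pos (H.z_pos _) (H.z_pos _)) (H.z_pos _)).le
      have h9 : C * (be n + ∑' m, kap ^ m * be (n + m) ^ 2 * d (n + m)) ≤
          C * (B * h n * ((n : ℝ) + 1) ^ 2 + B ^ 2 * ((n : ℝ) + 1) ^ 2 * G n) :=
        mul_le_mul_of_nonneg_left (add_le_add h6 h5) H.C_nn
      nlinarith
    have ee : ∀ j : ℕ, j ≤ n + 3 → z j ≤ w j * (((n + 3 : ℕ) : ℝ) + 1) ^ 2 := by
      intro j hj
      have e1 : z j = w j * ((j : ℝ) + 1) ^ 2 := by simp only [hw]; field_simp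
      have : (j : ℝ) ≤ ((n + 3 : ℕ) : ℝ) := Nat.cast_le.2 hj
      have := hw0 j
      rw [e1]; gcongr
    have hA : 0 ≤ C * (B * h n + B ^ 2 * G n) :=
      mul_nonneg H.C_nn (add_nonneg (mul_nonneg hB (hh0 n).le) (mul_nonneg (by positivity) (hG0 n)))
    show z (n + 3) / (((n + 3 : ℕ) : ℝ) + 1) ^ 2 ≤ _
    rw [div_le_iff₀ (by positivity)]
    have q2 : ((n : ℝ) + 1) ^ 2 ≤ (((n + 3 : ℕ) : ℝ) + 1) ^ 2 := by push_cast; nlinarith
    have r0 := ee n (by omega)
    have r1 := ee (n + 1) (by omega)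
    have r2 := ee (n + 2) (by omega)
    have r3 := mul_le_mul_of_nonneg_left q2 hA
    nlinarith
  set A0 := ∑ k ∈ range (n0 + 3), w k with hA0
  have hsumw : ∀ N, ∑ n ∈ range N, w n ≤
      2 * A0 + 2 * (C * (B * ∑ n ∈ range N, h n + B ^ 2 * (S * D))) := by
    intro N
    have h1 := sum_rec3 (e := fun n => C * (B * h n + B ^ 2 * G n)) hw0
      (fun n => mul_nonneg H.C_nn (add_nonneg (mul_nonneg hB (hh0 n).le)
        (mul_nonneg (by positivity) (hG0 n)))) hstep N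
    have h2 : ∑ n ∈ range N, C * (B * h n + B ^ 2 * G n) =
        C * (B * ∑ n ∈ range N, h n + B ^ 2 * ∑ n ∈ range N, G n) := by
      rw [← mul_sum, sum_add_distrib, ← mul_sum, ← mul_sum]
    have h3 : C * (B * ∑ n ∈ range N, h n + B ^ 2 * ∑ n ∈ range N, G n) ≤
        C * (B * ∑ n ∈ range N, h n + B ^ 2 * (S * D)) := by
      have := H.C_nn
      have := hGsum N
      gcongr
    linarith
  -- AM-GM
  have hc := H.c_pos
  set K := 2 * C * B + 1 with hK
  have hK0 : 0 < K := by have := mul_nonneg H.C_nn hB; nlinarith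
  have hag : ∀ n, 2 * K * h n ≤ w n + K ^ 2 / c * d n := by
    intro n
    have hd := H.d_pos n
    have h1 : c / d n * h n ^ 2 ≤ w n := by
      have : w n = z n * h n ^ 2 := by simp only [hw, hh]; field_simp
      rw [this]; exact mul_le_mul_of_nonneg_right (H.z_ge n) (by positivity)
    have h2 : c / d n * h n ^ 2 + K ^ 2 / c * d n - 2 * K * h n =
        (c * h n - K * d n) ^ 2 / (c * d n) := by field_simp; ring
    have h3 : 0 ≤ (c * h n - K * d n) ^ 2 / (c * d n) := by positivity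
    linarith
  have hbd : ∀ N, ∑ n ∈ range N, h n ≤ 2 * A0 + 2 * (C * (B ^ 2 * (S * D))) + K ^ 2 / c * D := by
    intro N
    have h1 : ∑ n ∈ range N, 2 * K * h n ≤ ∑ n ∈ range N, (w n + K ^ 2 / c * d n) :=
      sum_le_sum fun n _ => hag n
    rw [← mul_sum, sum_add_distrib, ← mul_sum] at h1
    have h2 := hsumw N
    have h3 : ∑ n ∈ range N, d n ≤ D := by simpa using H.sum_d_le 0 N
    have h4 : K ^ 2 / c * ∑ n ∈ range N, d n ≤ K ^ 2 / c * D := by gcongr
    have h5 : 0 ≤ ∑ n ∈ range N, h n := sum_nonneg fun n _ => (hh0 n).le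
    have h6 := mul_nonneg (mul_nonneg H.C_nn hB) h5
    nlinarith
  have hsum : Summable h := summable_of_sum_range_le (fun n => (hh0 n).le) hbd
  apply Real.not_summable_one_div_natCast
  rw [← summable_nat_add_iff 1]
  simpa [hh] using hsum

/-- Both passes: the memory term is `∑ aₘ^(1/2) d_(m+1)^(-3/4)`, `aₘ = a0 / K^m`. -/
theorem two (H : Hyp3 c C th kap n0 d z be)
    {K a0 c0 B : ℝ} (hK : 1 < K) (ha0 : 0 < a0) (hc0 : 0 < c0) (hkap : kap * K ≤ 1)
    (hd : ∀ n, c0 * (a0 / K ^ n) ≤ d n)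
    (hbe : ∀ n : ℕ, be n ≤ B * ((n : ℝ) + 1) *
      (1 + ∑ m ∈ range (n - 1), (a0 / K ^ m) ^ (1 / 2 : ℝ) * d (m + 1) ^ (-(3 / 4) : ℝ))) :
    False :=
  two_core H.c_pos H.kap_pos H.d_pos H.z_ge H.be_nn H.r1 H.r2 hK ha0 hc0 hkap hd hbe

/-- The same with times: `d n = t (n+1) - t n`, memory term `(t n - t (m+1))^(-3/4)`. -/
theorem two_times {t : ℕ → ℝ} (H : Hyp3 c C th kap n0 (fun n => t (n + 1) - t n) z be)
    {K a0 c0 B : ℝ} (hK : 1 < K) (ha0 : 0 < a0) (hc0 : 0 < c0) (hkap : kap * K ≤ 1)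
    (hd : ∀ n, c0 * (a0 / K ^ n) ≤ t (n + 1) - t n)
    (hbe : ∀ n : ℕ, be n ≤ B * ((n : ℝ) + 1) *
      (1 + ∑ m ∈ range (n - 1), (a0 / K ^ m) ^ (1 / 2 : ℝ) * (t n - t (m + 1)) ^ (-(3 / 4) : ℝ))) :
    False := by
  have hB : 0 ≤ B := by have := (H.be_nn 0).trans (hbe 0); simpa using this
  have hm : StrictMono t := strictMono_nat_of_lt_succ fun n => by have := H.d_pos n; linarith
  refine H.two (B := B) hK ha0 hc0 hkap hd fun n => (hbe n).trans ?_
  have hK0 : 0 < K := by linarith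
  refine mul_le_mul_of_nonneg_left (add_le_add le_rfl (sum_le_sum fun m hm' => ?_)) (by positivity)
  refine mul_le_mul_of_nonneg_left ?_ (by positivity)
  refine Real.rpow_le_rpow_of_nonpos (H.d_pos (m + 1)) ?_ (by norm_num)
  have : t (m + 1 + 1) ≤ t n := hm.monotone (by have := mem_range.1 hm'; omega)
  linarith

end Hyp3

end Crest.Agent.N207.R
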