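import Crest.Agent.N207.R.Disc

/-! Row 207, block R: the two passes (helper87). -/

set_option autoImplicit false
open Finset Filter

namespace Crest.Agent.N207.R

theorem geo_sum_le {x : ℝ} (hx : 1 < x) (n : ℕ) : ∑ m ∈ range n, x ^ m ≤ x ^ n / (x - 1) := by
  rw [geom_sum_eq hx.ne']
  have : 0 < x - 1 := by linarith
  gcongr; linarith

/-- Both passes: the memory term is `∑ aₘ^(1/2) d_(m+1)^(-3/4)`, `aₘ = a0 / K^m`. -/
theorem two_core {c kap : ℝ} {d z be : ℕ → ℝ} (hc : 0 < c) (kap_pos : 0 < kap)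
    (d_pos : ∀ n, 0 < d n) (z_ge : ∀ n, c / d n ≤ z n) (be_nn : ∀ n, 0 ≤ be n)
    (r1 : ∀ {B x : ℝ}, 1 ≤ x → x ^ 2 * kap < 1 → (∀ n : ℕ, be n ≤ B * ((n : ℝ) + 1) * x ^ n) →
      ∃ C' : ℝ, 0 < C' ∧ ∀ n : ℕ, z n ≤ C' * ((n : ℝ) + 1) ^ 2 * x ^ (2 * n))
    (r2 : ∀ {B : ℝ}, (∀ n : ℕ, be n ≤ B * ((n : ℝ) + 1)) → False)
    {K a0 c0 B : ℝ} (hK : 1 < K) (ha0 : 0 < a0) (hc0 : 0 < c0) (hkap : kap * K ≤ 1)
    (hd : ∀ n, c0 * (a0 / K ^ n) ≤ d n)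
    (hbe : ∀ n : ℕ, be n ≤ B * ((n : ℝ) + 1) *
      (1 + ∑ m ∈ range (n - 1), (a0 / K ^ m) ^ (1 / 2 : ℝ) * d (m + 1) ^ (-(3 / 4) : ℝ))) :
    False := by
  have hK0 : 0 < K := by linarith
  have hB : 0 ≤ B := by have := (be_nn 0).trans (hbe 0); simpa using this
  set y := K ^ (1 / 8 : ℝ) with hy
  have hy1 : 1 < y := Real.one_lt_rpow hK (by norm_num)
  have hy0 : 0 < y := by linarith
  have hy8 : y ^ 8 = K := by
    rw [hy, ← Real.rpow_natCast, ← Real.rpow_mul hK0.le]; norm_num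
  have r8 : ∀ (u : ℝ), 0 < u → ∀ (k : ℕ) (e : ℝ), (k : ℝ) = 8 * e → (u ^ 8) ^ e = u ^ k := by
    intro u hu k e he
    rw [← Real.rpow_natCast u 8, ← Real.rpow_mul hu.le, ← Real.rpow_natCast u k, he]; norm_num
  have ha : ∀ m : ℕ, (a0 / K ^ m) ^ (1 / 2 : ℝ) = a0 ^ (1 / 2 : ℝ) / y ^ (4 * m) := by
    intro m
    rw [Real.div_rpow ha0.le (by positivity), ← hy8, ← pow_mul, mul_comm 8 m, pow_mul,
      r8 _ (by positivity) 4 _ (by norm_num), ← pow_mul, mul_comm m 4]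
  have anti : ∀ {u v : ℝ}, 0 < u → u ≤ v → v ^ (-(3 / 4) : ℝ) ≤ u ^ (-(3 / 4) : ℝ) :=
    fun hu huv => Real.rpow_le_rpow_of_nonpos hu huv (by norm_num)
  have hinv : ∀ (A : ℝ), 0 < A → ∀ u : ℝ, 0 < u →
      (A / u ^ 8) ^ (-(3 / 4) : ℝ) = A ^ (-(3 / 4) : ℝ) * u ^ 6 := by
    intro A hA u hu
    rw [Real.div_rpow hA.le (by positivity), Real.rpow_neg (x := u ^ 8) (by positivity),
      r8 u hu 6 _ (by norm_num), div_inv_eq_mul]
  -- pass 1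
  set A1 := a0 ^ (1 / 2 : ℝ) * (c0 * a0) ^ (-(3 / 4) : ℝ) * y ^ 6 with hA1
  have hA10 : 0 ≤ A1 := by positivity
  have hx1 : 1 < y ^ 2 := one_lt_pow₀ hy1 (by norm_num)
  have p1 : ∀ m : ℕ, (a0 / K ^ m) ^ (1 / 2 : ℝ) * d (m + 1) ^ (-(3 / 4) : ℝ) ≤ A1 * (y ^ 2) ^ m := by
    intro m
    have h1 : c0 * (a0 / K ^ (m + 1)) = c0 * a0 / (y ^ (m + 1)) ^ 8 := by
      rw [← hy8, ← pow_mul, ← pow_mul, mul_comm 8]; ring
    have h2 := anti (by positivity) (hd (m + 1))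
    rw [h1, hinv _ (by positivity) _ (by positivity)] at h2
    rw [ha]
    refine (mul_le_mul_of_nonneg_left h2 (by positivity)).trans (le_of_eq ?_)
    simp only [hA1]; field_simp; ring
  have b1 : ∀ n : ℕ, be n ≤ B * (1 + A1 / (y ^ 2 - 1)) * ((n : ℝ) + 1) * (y ^ 2) ^ n := by
    intro n
    refine (hbe n).trans ?_
    have h1 : ∑ m ∈ range (n - 1), (a0 / K ^ m) ^ (1 / 2 : ℝ) * d (m + 1) ^ (-(3 / 4) : ℝ) ≤
        A1 / (y ^ 2 - 1) * (y ^ 2) ^ n := by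
      refine (sum_le_sum fun m _ => p1 m).trans ?_
      rw [← mul_sum]
      have h2 := geo_sum_le hx1 (n - 1)
      have h3 : (y ^ 2) ^ (n - 1) ≤ (y ^ 2) ^ n := pow_le_pow_right₀ hx1.le (by omega)
      have h4 : 0 < y ^ 2 - 1 := by linarith
      calc A1 * ∑ m ∈ range (n - 1), (y ^ 2) ^ m ≤ A1 * ((y ^ 2) ^ n / (y ^ 2 - 1)) := by
            refine mul_le_mul_of_nonneg_left (h2.trans ?_) hA10; gcongr
        _ = _ := by ring
    have h2 : (1 : ℝ) ≤ (y ^ 2) ^ n := one_le_pow₀ hx1.le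
    have h3 : 1 + ∑ m ∈ range (n - 1), (a0 / K ^ m) ^ (1 / 2 : ℝ) * d (m + 1) ^ (-(3 / 4) : ℝ) ≤
        (1 + A1 / (y ^ 2 - 1)) * (y ^ 2) ^ n := by linarith
    calc _ ≤ B * ((n : ℝ) + 1) * ((1 + A1 / (y ^ 2 - 1)) * (y ^ 2) ^ n) :=
          mul_le_mul_of_nonneg_left h3 (by positivity)
      _ = _ := by ring
  have hk : (y ^ 2) ^ 2 * kap < 1 := by
    have h1 : (y ^ 2) ^ 2 < K := by
      rw [← hy8, ← pow_mul]; exact pow_lt_pow_right₀ hy1 (by norm_num)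
    nlinarith
  obtain ⟨C', hC', hz⟩ := r1 hx1.le hk b1
  -- pass 2
  have d2 : ∀ n : ℕ, c / C' / (((n : ℝ) + 1) ^ 2 * (y ^ 2) ^ (2 * n)) ≤ d n := by
    intro n
    have h1 := (z_ge n).trans (hz n)
    rw [div_le_iff₀ (d_pos n)] at h1
    rw [div_div, div_le_iff₀ (by positivity)]
    nlinarith
  set A2 := a0 ^ (1 / 2 : ℝ) * (c / C') ^ (-(3 / 4) : ℝ) * y ^ 3 * 4 with hA2
  have hA20 : 0 ≤ A2 := by positivity
  have p2 : ∀ m : ℕ, (a0 / K ^ m) ^ (1 / 2 : ℝ) * d (m + 1) ^ (-(3 / 4) : ℝ) ≤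
      A2 * (y⁻¹ ^ m * ((m : ℝ) + 1) ^ 2) := by
    intro m
    set p : ℝ := ((m + 1 : ℕ) : ℝ) + 1 with hp
    have hp1 : 1 ≤ p := by rw [hp]; exact le_add_of_nonneg_left (Nat.cast_nonneg _)
    have h2 := anti (by positivity) (d2 (m + 1))
    rw [← hp] at h2
    have h3 : (c / C' / (p ^ 2 * (y ^ 2) ^ (2 * (m + 1)))) ^ (-(3 / 4) : ℝ) ≤
        (c / C') ^ (-(3 / 4) : ℝ) * (p ^ 2 * y ^ (3 * (m + 1))) := by
      rw [Real.div_rpow (by positivity) (by positivity),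
        Real.rpow_neg (x := p ^ 2 * (y ^ 2) ^ (2 * (m + 1))) (by positivity), div_inv_eq_mul,
        Real.mul_rpow (by positivity) (by positivity)]
      refine mul_le_mul_of_nonneg_left (mul_le_mul ?_ (le_of_eq ?_) (by positivity) (by positivity))
        (by positivity)
      · calc (p ^ 2) ^ (3 / 4 : ℝ) ≤ (p ^ 2) ^ (1 : ℝ) :=
              Real.rpow_le_rpow_of_exponent_le (one_le_pow₀ hp1) (by norm_num)
          _ = _ := Real.rpow_one _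
      · rw [← pow_mul, ← Real.rpow_natCast y, ← Real.rpow_mul hy0.le, ← Real.rpow_natCast y]
        congr 1; push_cast; ring
    have h4 : p ^ 2 ≤ 4 * ((m : ℝ) + 1) ^ 2 := by
      rw [hp]; push_cast; nlinarith [Nat.cast_nonneg (α := ℝ) m]
    rw [ha]
    calc _ ≤ a0 ^ (1 / 2 : ℝ) / y ^ (4 * m) *
          ((c / C') ^ (-(3 / 4) : ℝ) * (4 * ((m : ℝ) + 1) ^ 2 * y ^ (3 * (m + 1)))) := by
          refine mul_le_mul_of_nonneg_left ((h2.trans h3).trans ?_) (by positivity)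
          gcongr
      _ = _ := by simp only [hA2, inv_pow]; field_simp; ring
  have hs := summable_sq_geo (inv_pos.2 hy0) (inv_lt_one_of_one_lt₀ hy1)
  set S := ∑' m : ℕ, y⁻¹ ^ m * ((m : ℝ) + 1) ^ 2 with hS
  refine r2 (B := B * (1 + A2 * S)) fun n => (hbe n).trans ?_
  have h1 : ∑ m ∈ range (n - 1), (a0 / K ^ m) ^ (1 / 2 : ℝ) * d (m + 1) ^ (-(3 / 4) : ℝ) ≤ A2 * S := by
    refine (sum_le_sum fun m _ => p2 m).trans ?_
    rw [← mul_sum]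
    exact mul_le_mul_of_nonneg_left (hs.sum_le_tsum _ fun m _ => by positivity) hA20
  calc _ ≤ B * ((n : ℝ) + 1) * (1 + A2 * S) := by gcongr
    _ = _ := by ring

/-- Both passes: the memory term is `∑ aₘ^(1/2) d_(m+1)^(-3/4)`, `aₘ = a0 / K^m`. -/
theorem Hyp.two {c C th kap : ℝ} {n0 : ℕ} {d z be : ℕ → ℝ} (H : Hyp c C th kap n0 d z be)
    {K a0 c0 B : ℝ} (hK : 1 < K) (ha0 : 0 < a0) (hc0 : 0 < c0) (hkap : kap * K ≤ 1)
    (hd : ∀ n, c0 * (a0 / K ^ n) ≤ d n)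
    (hbe : ∀ n : ℕ, be n ≤ B * ((n : ℝ) + 1) *
      (1 + ∑ m ∈ range (n - 1), (a0 / K ^ m) ^ (1 / 2 : ℝ) * d (m + 1) ^ (-(3 / 4) : ℝ))) :
    False :=
  two_core H.c_pos H.kap_pos H.d_pos H.z_ge H.be_nn H.r1 H.r2 hK ha0 hc0 hkap hd hbe

/-- The same with times: `d n = t (n+1) - t n`, memory term `(t n - t (m+1))^(-3/4)`. -/
theorem Hyp.two_times {c C th kap : ℝ} {n0 : ℕ} {t z be : ℕ → ℝ}
    (H : Hyp c C th kap n0 (fun n => t (n + 1) - t n) z be)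
    {K a0 c0 B : ℝ} (hK : 1 < K) (ha0 : 0 < a0) (hc0 : 0 < c0) (hkap : kap * K ≤ 1)
    (hd : ∀ n, c0 * (a0 / K ^ n) ≤ t (n + 1) - t n)
    (hbe : ∀ n : ℕ, be n ≤ B * ((n : ℝ) + 1) *
      (1 + ∑ m ∈ range (n - 1), (a0 / K ^ m) ^ (1 / 2 : ℝ) * (t n - t (m + 1)) ^ (-(3 / 4) : ℝ))) :
    False := by
  have hB : 0 ≤ B := by have := (H.be_nn 0).trans (hbe 0); simpa using this
  have hm : StrictMono t := strictMono_nat_of_lt_succ fun n => by have := H.d_pos n; linarith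
  refine H.two (B := B) hK ha0 hc0 hkap hd fun n => (hbe n).trans ?_
  have hK0 : 0 < K := by linarith
  refine mul_le_mul_of_nonneg_left (add_le_add le_rfl (sum_le_sum fun m hm' => ?_)) (by positivity)
  refine mul_le_mul_of_nonneg_left ?_ (by positivity)
  refine Real.rpow_le_rpow_of_nonpos (H.d_pos (m + 1)) ?_ (by norm_num)
  have : t (m + 1 + 1) ≤ t n := hm.monotone (by have := mem_range.1 hm'; omega)
  linarith

end Crest.Agent.N207.R
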